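import Vale.Agent.P181.DH.Defs
import Vale.Agent.P181.DG8.Main

set_option autoImplicit false

/-!
# P181, DH (H4): the assembly `AsmH` (no strip is removed)
-/

namespace Vale.Agent.P181.DH.H357

open MvPolynomial
open Vale.Agent.P181.T4 (HW ex low ex_of_lt ex_anti low_anti)
open Vale.Agent.P181.H280 (plethMult hwSpace)
open Vale.Agent.P181.H463 (gt)
open Vale.Agent.P181.H503 (gt_congr ex_low)
open Vale.Agent.P181.SZ
open Vale.Agent.P181.PL (dn)
open Vale.Agent.P181.PL5 (ex_val)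
open Vale.Agent.P181.DG
open Vale.Agent.P181.DG8

/-- more points -/
lemma mono_points (hM : MonoTI) {M M' a m : ℕ} (nu : Fin m → ℕ) (h : M ≤ M') :
    Module.finrank ℂ (TI M a m nu) ≤ Module.finrank ℂ (TI M' a m nu) := by
  induction M', h using Nat.le_induction with
  | base => exact le_rfl
  | succ t _ ih => exact ih.trans (hM a t m nu)

/-- a larger bound for the degrees -/
lemma mono_deg {M a a' m : ℕ} (nu : Fin m → ℕ) (h : a ≤ a') :
    Module.finrank ℂ (TI M a m nu) ≤ Module.finrank ℂ (TI M a' m nu) := by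
  apply Submodule.finrank_mono
  intro f hf
  rw [mem_TI] at hf ⊢
  exact ⟨hf.1, hf.2.1, fun v hv j => (hf.2.2.1 v hv j).trans h, hf.2.2.2⟩

open scoped Classical in
/-- **(H4)** -/
theorem asmH (hMono : MonoT) (hUp : UpT) (hLow : LowT) (hDis : DisT) (hFew : FewT)
    (hFl : FlowT) (hUA : UpperA) (hLA : LowerA) (hMI : MonoTI) (hSem : SemT) : AsmH := by
  intro a b n R X Z K w a0 b0 j lam nu hlam hsum hpos hR1 hRn hw hZ1 hZ2 hK hKX hXZ hwX hKa
    hab hjb hZa ha0a haw hn1 hn2 hn3 hn0 hfinal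
  obtain ⟨m, rfl⟩ : ∃ m, n = m + 2 + 1 := ⟨n - 3, by omega⟩
  have hw' : ∑ i, tl lam i = w := by rw [hw, dn_one]
  obtain ⟨S, hS⟩ : ∃ S, S = (Z + 1) * X := ⟨_, rfl⟩
  have hX1 : 1 ≤ X := by omega
  have hZ0 : 1 ≤ Z := by omega
  have hS1 : Z + 1 ≤ S := by
    rw [hS]
    exact Nat.le_mul_of_pos_right _ (by omega)
  have hSX : X ≤ S := by
    rw [hS]
    exact Nat.le_mul_of_pos_left _ (by omega)
  have hKS : S ≤ K * S := Nat.le_mul_of_pos_left _ (by omega)
  have hKa' : 100 * (K * S) ≤ a := by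
    rw [hS]
    calc 100 * (K * ((Z + 1) * X)) = 100 * K * ((Z + 1) * X) := by ring
      _ ≤ a := hKa
  have ha1 : 1 ≤ a := by omega
  have hS4 : 4 ≤ S := by omega
  -- the size of the contents
  have hcard : ∀ k ∈ KT w S, 3 * Multiset.card k + 1 ≤ Z := by
    intro k hk
    have h1 := card_KT (by omega) hk
    have h2 : Multiset.card k * X < Z + 1 := by
      by_contra h
      have h3 : (Z + 1) * (Z + 1) ≤ (Z + 1) * (Multiset.card k * X) :=
        Nat.mul_le_mul_left _ (by omega)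
      have h4 : (Z + 1) * (Multiset.card k * X) = Multiset.card k * S := by rw [hS]; ring
      have h5 : (Z + 1) ^ 2 = (Z + 1) * (Z + 1) := sq _
      omega
    have h3 : Multiset.card k * 32 ≤ Multiset.card k * X := Nat.mul_le_mul_left _ (by omega)
    omega
  -- `J`
  have e1 : Z * X ^ 2 = Z * X * X := by ring
  have e2 : Z * X * (16 * K + 16) ≤ Z * X * X := Nat.mul_le_mul_left _ hKX
  have e3 : Z * X * (16 * K + 16) = 16 * (K * (Z * X)) + 16 * (Z * X) := by ring
  have e4 : K * S = K * (Z * X) + K * X := by rw [hS]; ring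
  have e4' : S = Z * X + X := by rw [hS]; ring
  have e5 : K * X ≤ K * (Z * X) := Nat.mul_le_mul_left _ (Nat.le_mul_of_pos_left _ hZ0)
  have e5' : X ≤ Z * X := Nat.le_mul_of_pos_left _ hZ0
  have e6 : 1 ≤ Z * X := Nat.mul_pos hZ0 hX1
  have e7 : (2 * (3 * K) + 3) * S = 6 * (K * S) + 3 * S := by ring
  obtain ⟨J, hJ, hJ1, hJ2⟩ : ∃ J, ((m + 2 + 1 ≤ Z * X ^ 2 → J = Z * X ^ 2) ∧
      (¬ m + 2 + 1 ≤ Z * X ^ 2 → J + 1 = Z * X ^ 2)) ∧ J ≤ Z * X ^ 2 ∧ Z * X ^ 2 ≤ J + 1 := by
    by_cases h : m + 2 + 1 ≤ Z * X ^ 2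
    · exact ⟨Z * X ^ 2, ⟨fun _ => rfl, fun h' => absurd h h'⟩, le_rfl, by omega⟩
    · exact ⟨Z * X ^ 2 - 1, ⟨fun h' => absurd h' h, fun _ => by omega⟩, by omega, by omega⟩
  have hSJ : S ≤ J := by omega
  have hZJ : Z ≤ J := by omega
  -- the functions
  obtain ⟨N, hN⟩ : ∃ N : Multiset ℕ → ℕ → ℕ, N = NT (m + 2) S (tl lam) := ⟨_, rfl⟩
  have hNm : ∀ k t, N k t ≤ N k (t + 1) := fun k t => by
    rw [hN]
    exact hMono (m + 2) S (tl lam) k t (by omega)
  have hDG : DisG S fun k t => N k t - N k (t - 1) := by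
    rw [hN]
    exact disG hMono hDis hS4 (tl lam)
  have hup := (hUA a b (m + 2) lam).trans (hUp a b (m + 2) S (tl lam) (by omega))
  have hlow := hLow a (3 * j) (m + 2) S (tl lam) (by omega) (by omega)
  have hfew := hFew (m + 2) S J (tl lam) (by omega)
  rw [hw', ← hN] at hup hlow hfew
  have hc1 : ∀ k ∈ KT w S, a + 1 + 3 * Multiset.card k ≤ 3 * j ∧ Multiset.card k ≤ a := by
    intro k hk
    have := hcard k hk
    omega
  have hc2 : ∀ k ∈ KT w S, Multiset.card k ≤ J := by
    intro k hk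
    have := hcard k hk
    omega
  have h1 := core_low (b := 3 * j) hNm hc1
  have h2 := core_up (b := b) hNm (show J ≤ a by omega) hc2
  have h3 := hFl (fun k t => N k t - N k (t - 1)) a (J + 1) S (3 * K) X w hDG (by omega) hS4
    (by omega) (by
      rw [hS, mul_pow]
      exact Nat.mul_le_mul_right _ hZ2.le) (by
      have f1 : X ^ (3 * K) = (X ^ K) ^ 3 := by rw [mul_comm, pow_mul]
      have f2 : (4 * w) ^ 3 ≤ (X ^ K) ^ 3 := Nat.pow_le_pow_left hwX 3
      have f3 : (w + 1) * (a + 2) ≤ (2 * w) * (3 * w) := Nat.mul_le_mul (by omega) (by omega)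
      have f4 : w * w ≤ w * w * w := Nat.le_mul_of_pos_right _ (by omega)
      have f5 : (4 * w) ^ 3 = 64 * (w * w * w) := by ring
      have f6 : (2 * w) * (3 * w) = 6 * (w * w) := by ring
      rw [f1]
      omega) (by omega) (by omega)
  set Good := ∑ p ∈ (KT w S ×ˢ Finset.range (a + 2)).filter (GoodT a),
    (N p.1 p.2 - N p.1 (p.2 - 1)) with hGood
  set Bad := ∑ p ∈ (KT w S ×ˢ Finset.range (a + 2)).filter (BadT a (J + 1)),
    (N p.1 p.2 - N p.1 (p.2 - 1)) with hBad
  set Few := ∑ k ∈ (KT w S).filter (fun k => Multiset.card k ≤ J), N k (J - Multiset.card k)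
    with hFewdef
  set A0 := ∑ k ∈ (KT w S).filter (fun k => ∀ x ∈ k, x ≤ a), N k (a - Multiset.card k)
    with hA0
  have h3' : 3 * Bad ≤ Good := h3
  -- the few letters
  have hfg : Few ≤ Module.finrank ℂ (TI (b - 3 * j) a (m + 2) (tl nu)) := by
    by_cases hnJ : m + 2 + 1 ≤ Z * X ^ 2
    · have hJe := hJ.1 hnJ
      have hbig' := hfinal hnJ
      have hcut := hw_cut (J := J) (show R ≤ m + 2 by omega) (tl lam) (tl_anti hlam) w
        (fun i => by
          rw [← hw']
          exact Finset.single_le_sum (f := tl lam) (fun _ _ => Nat.zero_le _)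
            (Finset.mem_univ i))
      have hgt : gt (m + 2 - R) J (low R (tl lam)) =
          gt (m + 2 + 1 - (R + 1)) (Z * X ^ 2) (low (R + 1) lam) := by
        rw [hJe]
        apply gt_congr (by omega)
        intro i
        rw [ex_low, ex_low, ex_tl]
        congr 1
        omega
      rw [hgt] at hcut
      have hF1 : Few ≤ (w + 1) ^ (R * J) *
          gt (m + 2 + 1 - (R + 1)) (Z * X ^ 2) (low (R + 1) lam) := hfew.trans hcut
      rw [hJe] at hF1
      exact (hF1.trans hbig').trans ((hUA b0 a0 (m + 2) nu).trans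
        ((mono_deg (tl nu) ha0a).trans (mono_points hMI (tl nu) (by omega))))
    · have hpos : ∀ i, 0 < lam i := hpos.resolve_right hnJ
      have hJe := hJ.2 hnJ
      rw [hw_zero (by omega) (tl lam) (tl_anti hlam) (fun i => hpos _)] at hfew
      omega
  -- the triangles
  have hmu : ∀ i : Fin (m + 2), tl lam i = tl nu i + if (i : ℕ) < 2 then 2 * j else 0 := by
    intro i
    rw [← ex_val (tl lam) i, ← ex_val (tl nu) i, ex_tl, ex_tl]
    by_cases h : (i : ℕ) < 2
    · rw [if_pos h]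
      obtain h' | h' : (i : ℕ) = 0 ∨ (i : ℕ) = 1 := by omega
      · rw [h', zero_add, ← hn1]
      · rw [h', ← hn2]
    · rw [if_neg h, add_zero, hn3 _ (by omega)]
  have hnu0 : tl nu ≠ 0 := by
    intro h
    have g1 : ex (tl nu) 0 = 0 := by
      rw [h]
      simp [ex]
    rw [ex_tl] at g1
    simp only [zero_add] at g1
    omega
  have hsem := hSem a (b - 3 * j) m j (tl lam) (tl nu) (by omega) hmu hnu0
  have hb : 3 * j + (b - 3 * j) = b := by omega
  rw [hb] at hsem
  have hup' : plethMult a b (m + 2 + 1) lam ≤ A0 + (Few + Bad) := le_trans (by convert hup) h2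
  have hlow' : A0 + Good ≤ Module.finrank ℂ (TI (3 * j) a (m + 2) (tl lam)) :=
    le_trans h1 (by convert hlow)
  have hfin := hLA a b (m + 2) lam hsum
  omega

end Vale.Agent.P181.DH.H357
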